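import Vale.Agent.P335.Bdl.B2

namespace Vale.Agent.Results.P335.ExplicitN6

open Vale.Agent.P335

/-- The Kannan-Tetali-Vempala conjecture for simple graphs with an explicit polynomial: for every
`n ≥ 4` and every graphical degree vector, the mixing time of the switch chain is at most `n ^ 6`,
and the chain is mixed at every time `t ≥ n ^ 6`. -/
theorem result : ∀ n : ℕ, 4 ≤ n → ∀ d : Fin n → ℕ, Graphical d →
    IsLeast {t : ℕ | MixedBy d t} (tmix d) ∧ tmix d ≤ n ^ 6 ∧
      ∀ t : ℕ, n ^ 6 ≤ t → MixedBy d t :=
  final_of_half (fun _ _ d _ => poincare_half d)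

end Vale.Agent.Results.P335.ExplicitN6
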